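import Vale.Agent.Lib.P346.Main
import Vale.Agent.Lib.P346.Exist

/-! P346, lower bound `2^{c √n}` over the field with two elements. -/

namespace Vale.Agent.Results.P346.DepthFiveTwo

open Vale.Agent.P346

/-- Over `F₂` there is an absolute constant `c > 0` such that for every `n ≥ 1`
* every sum-product-sum-product-sum circuit, homogeneous or not, computing `IMM_{n,n}` has size at
  least `2^{c √n}`;
* there is a syntactically homogeneous such circuit and hence `s_{F₂}(n)` is the size of a circuit,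
  and `2^{c √n} ≤ s_{F₂}(n)`. -/
theorem result : ∃ c : ℝ, 0 < c ∧ ∀ (n : ℕ) [NeZero n],
    (∀ C : Circuit (ZMod 2) (Var n n), C.value = IMM (ZMod 2) n n →
      (2 : ℝ) ^ (c * Real.sqrt n) ≤ C.size) ∧
    (∃ C : Circuit (ZMod 2) (Var n n), C.Homogeneous ∧ C.value = IMM (ZMod 2) n n ∧
      C.size = s (ZMod 2) n) ∧
    (2 : ℝ) ^ (c * Real.sqrt n) ≤ s (ZMod 2) n := by
  obtain ⟨c, hc, h⟩ := lower
  refine ⟨c, hc, ?_⟩
  intro n hn
  have hmem : s (ZMod 2) n ∈ {m | ∃ C : Circuit (ZMod 2) (Var n n),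
      C.Homogeneous ∧ C.value = IMM (ZMod 2) n n ∧ C.size = m} := by
    apply Nat.sInf_mem
    obtain ⟨C, hC1, hC2⟩ := exists_circuit (ZMod 2) n
    exact ⟨C.size, C, hC1, hC2, rfl⟩
  obtain ⟨C, hC1, hC2, hC3⟩ := hmem
  refine ⟨fun C hC => h n C hC, ⟨C, hC1, hC2, hC3⟩, ?_⟩
  rw [← hC3]
  exact h n C hC2

end Vale.Agent.Results.P346.DepthFiveTwo
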