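import Vale.Agent.Lib.P346q.Final

/-! P346, lower bound `2^{c √n}` over every finite field. -/

namespace Vale.Agent.Results.P346.FiniteFields

open Vale.Agent.P346

/-- For every finite field `F` there is a constant `c > 0` such that for every `n ≥ 1`
* every syntactically homogeneous sum-product-sum-product-sum circuit over `F` computing
  `IMM_{n,n}` has size at least `2^{c √n}`;
* such circuits exist, so that `s_F(n)` is the size of one of them, and `2^{c √n} ≤ s_F(n)`. -/
theorem result (F : Type) [Field F] [Finite F] : ∃ c : ℝ, 0 < c ∧ ∀ (n : ℕ) [NeZero n],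
    (∀ C : Circuit F (Var n n), C.Homogeneous → C.value = IMM F n n →
      (2 : ℝ) ^ (c * Real.sqrt n) ≤ C.size) ∧
    (∃ C : Circuit F (Var n n), C.Homogeneous ∧ C.value = IMM F n n ∧ C.size = s F n) ∧
    (2 : ℝ) ^ (c * Real.sqrt n) ≤ s F n := by
  haveI := Fintype.ofFinite F
  obtain ⟨c, hc, h⟩ := Vale.Agent.P346q.lower F
  refine ⟨c, hc, ?_⟩
  intro n hn
  have hmem : s F n ∈ {m | ∃ C : Circuit F (Var n n),
      C.Homogeneous ∧ C.value = IMM F n n ∧ C.size = m} := by
    apply Nat.sInf_mem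
    obtain ⟨C, hC1, hC2⟩ := exists_circuit F n
    exact ⟨C.size, C, hC1, hC2, rfl⟩
  obtain ⟨C, hC1, hC2, hC3⟩ := hmem
  refine ⟨fun C hC hC' => h n C hC hC', ⟨C, hC1, hC2, hC3⟩, ?_⟩
  rw [← hC3]
  exact h n C hC1 hC2

end Vale.Agent.Results.P346.FiniteFields
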